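import Mathlib

namespace Vale.Agent.Results.P123.DegreeOne

open Complex

variable {H : Type*} [NormedAddCommGroup H] [InnerProductSpace ℂ H]

private theorem quad_bound (T : H →L[ℂ] H) (M : ℝ)
    (hM : ∀ x : H, ‖x‖ = 1 → ‖inner ℂ (T x) x‖ ≤ M) (v : H) :
    ‖inner ℂ (T v) v‖ ≤ M * ‖v‖ ^ 2 := by
  by_cases hv : v = 0
  · subst hv; simp
  · have hu : ‖((‖v‖⁻¹ : ℝ) : ℂ) • v‖ = 1 := by
      have := norm_smul_inv_norm (𝕜 := ℂ) hv
      simpa using this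
    have h1 := hM _ hu
    rw [map_smul, inner_smul_left, inner_smul_right, norm_mul, norm_mul] at h1
    have hc : ‖(starRingEnd ℂ) ((‖v‖⁻¹ : ℝ) : ℂ)‖ = ‖v‖⁻¹ := by
      rw [Complex.conj_ofReal, Complex.norm_real, Real.norm_eq_abs, abs_of_nonneg (by positivity)]
    have hc' : ‖((‖v‖⁻¹ : ℝ) : ℂ)‖ = ‖v‖⁻¹ := by
      rw [Complex.norm_real, Real.norm_eq_abs, abs_of_nonneg (by positivity)]
    rw [hc, hc'] at h1
    have hpos : 0 < ‖v‖ := norm_pos_iff.mpr hv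
    have h2 : ‖inner ℂ (T v) v‖ = ‖v‖ ^ 2 * (‖v‖⁻¹ * (‖v‖⁻¹ * ‖inner ℂ (T v) v‖)) := by
      field_simp
    rw [h2]
    nlinarith [mul_le_mul_of_nonneg_left h1 (by positivity : (0 : ℝ) ≤ ‖v‖ ^ 2)]

private theorem bil_bound (T : H →L[ℂ] H) (M : ℝ)
    (hM : ∀ v : H, ‖inner ℂ (T v) v‖ ≤ M * ‖v‖ ^ 2) (x y : H) :
    ‖inner ℂ (T y) x‖ ≤ M * (‖x‖ ^ 2 + ‖y‖ ^ 2) := by
  have hp := inner_map_polarization (T : H →ₗ[ℂ] H) x y
  simp only [ContinuousLinearMap.coe_coe] at hp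
  rw [hp, norm_div]
  have h4 : ‖(4 : ℂ)‖ = 4 := by simp
  rw [h4, div_le_iff₀ (by norm_num)]
  have e1 := hM (x + y)
  have e2 := hM (x - y)
  have e3 := hM (x + I • y)
  have e4 := hM (x - I • y)
  have p1 := parallelogram_law_with_norm ℂ x y
  have p2 := parallelogram_law_with_norm ℂ x (I • y)
  have hI : ‖I • y‖ = ‖y‖ := by rw [norm_smul]; simp
  rw [hI] at p2
  have t1 : ‖inner ℂ (T (x + y)) (x + y) - inner ℂ (T (x - y)) (x - y)
      + I * inner ℂ (T (x + I • y)) (x + I • y) - I * inner ℂ (T (x - I • y)) (x - I • y)‖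
      ≤ ‖inner ℂ (T (x + y)) (x + y)‖ + ‖inner ℂ (T (x - y)) (x - y)‖
        + ‖inner ℂ (T (x + I • y)) (x + I • y)‖ + ‖inner ℂ (T (x - I • y)) (x - I • y)‖ := by
    refine (norm_sub_le _ _).trans ?_
    have a1 : ‖I * inner ℂ (T (x - I • y)) (x - I • y)‖ = ‖inner ℂ (T (x - I • y)) (x - I • y)‖ := by
      rw [norm_mul]; simp
    have a2 : ‖I * inner ℂ (T (x + I • y)) (x + I • y)‖ = ‖inner ℂ (T (x + I • y)) (x + I • y)‖ := by
      rw [norm_mul]; simp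
    rw [a1]
    refine add_le_add_left ((norm_add_le _ _).trans ?_) _
    rw [a2]
    exact add_le_add_left (norm_sub_le _ _) _
  refine t1.trans ?_
  have q1 : M * ‖x + y‖ ^ 2 + M * ‖x - y‖ ^ 2 = M * (2 * (‖x‖ ^ 2 + ‖y‖ ^ 2)) := by
    rw [← mul_add, p1]
  have q2 : M * ‖x + I • y‖ ^ 2 + M * ‖x - I • y‖ ^ 2 = M * (2 * (‖x‖ ^ 2 + ‖y‖ ^ 2)) := by
    rw [← mul_add, p2]
  linarith

/-- Crouzeix's inequality with the conjectured constant `2` for all polynomials `a z + b` of degree at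
most one and every bounded operator `A` on a nonzero complex inner product space. -/
theorem result [Nontrivial H] (A : H →L[ℂ] H) (a b : ℂ) (M : ℝ)
    (hM : ∀ x : H, ‖x‖ = 1 → ‖a * inner ℂ x (A x) + b‖ ≤ M) :
    ‖a • A + b • ContinuousLinearMap.id ℂ H‖ ≤ 2 * M := by
  set T : H →L[ℂ] H := a • A + b • ContinuousLinearMap.id ℂ H with hT
  have hunit : ∀ x : H, ‖x‖ = 1 → ‖inner ℂ (T x) x‖ ≤ M := by
    intro x hx
    have h1 : inner ℂ x (T x) = a * inner ℂ x (A x) + b := by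
      simp only [hT, add_apply, smul_apply,
        ContinuousLinearMap.id_apply, inner_add_right, inner_smul_right]
      rw [inner_self_eq_norm_sq_to_K, hx]; simp
    rw [← inner_conj_symm, RCLike.norm_conj, h1]
    exact hM x hx
  have hM0 : 0 ≤ M := by
    obtain ⟨v, hv⟩ := exists_ne (0 : H)
    have hu : ‖((‖v‖⁻¹ : ℝ) : ℂ) • v‖ = 1 := by
      have := norm_smul_inv_norm (𝕜 := ℂ) hv
      simpa using this
    exact (norm_nonneg _).trans (hunit _ hu)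
  have hb := bil_bound T M (quad_bound T M hunit)
  refine ContinuousLinearMap.opNorm_le_bound _ (by positivity) ?_
  intro y
  by_cases hTy : T y = 0
  · rw [hTy]; simp; positivity
  · have hpos : 0 < ‖T y‖ := norm_pos_iff.mpr hTy
    have h1 := hb (((‖y‖ / ‖T y‖ : ℝ) : ℂ) • T y) y
    rw [inner_smul_right, inner_self_eq_norm_sq_to_K, norm_smul, norm_mul] at h1
    have hc : ‖((‖y‖ / ‖T y‖ : ℝ) : ℂ)‖ = ‖y‖ / ‖T y‖ := by
      rw [Complex.norm_real, Real.norm_eq_abs, abs_of_nonneg (by positivity)]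
    rw [hc] at h1
    rw [norm_pow, RCLike.norm_ofReal, abs_norm] at h1
    have e1 : ‖y‖ / ‖T y‖ * ‖T y‖ ^ 2 = ‖y‖ * ‖T y‖ := by field_simp
    have e2 : ‖y‖ / ‖T y‖ * ‖T y‖ = ‖y‖ := by field_simp
    rw [e1, e2] at h1
    by_cases hy : y = 0
    · subst hy; simp at hTy
    · have hy0 : 0 < ‖y‖ := norm_pos_iff.mpr hy
      have : ‖y‖ * ‖T y‖ ≤ ‖y‖ * (2 * M * ‖y‖) := by nlinarith
      exact le_of_mul_le_mul_left this hy0

end Vale.Agent.Results.P123.DegreeOne
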