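import Mathlib

namespace Vale.Agent.Results.P123.MatrixReduction

open Polynomial

universe u

/-- The Crouzeix inequality with constant `C` for all bounded operators `A` on the complex inner
product space `H` and all polynomials `P` of degree at most `d`: if `|P| ≤ M` on the numerical range
`W(A) = {⟨A x, x⟩ : ‖x‖ = 1}` then `‖P(A)‖ ≤ C M`.  (Mathlib's inner product is linear in the second
argument, so `⟨A x, x⟩` of the problem is `inner ℂ x (A x)`.) -/
def Holds (C : ℝ) (d : ℕ) (H : Type u) [NormedAddCommGroup H] [InnerProductSpace ℂ H] : Prop :=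
  ∀ (A : H →L[ℂ] H) (P : ℂ[X]) (M : ℝ), P.natDegree ≤ d → 0 ≤ M →
    (∀ x : H, ‖x‖ = 1 → ‖P.eval (inner ℂ x (A x))‖ ≤ M) → ‖aeval A P‖ ≤ C * M

/-- If the Crouzeix inequality with constant `C` holds for polynomials of degree at most `d` on all
spaces of dimension at most `d + 1`, it holds for polynomials of degree at most `d` on every complex
inner product space. -/
theorem result (C : ℝ) (hC : 0 ≤ C) (d : ℕ)
    (hfin : ∀ (K : Type u) [NormedAddCommGroup K] [InnerProductSpace ℂ K] [FiniteDimensional ℂ K],
      Module.finrank ℂ K ≤ d + 1 → Holds C d K)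
    (H : Type u) [NormedAddCommGroup H] [InnerProductSpace ℂ H] : Holds C d H := by
  intro A P M hP hM hW
  refine ContinuousLinearMap.opNorm_le_bound _ (mul_nonneg hC hM) ?_
  intro x
  set K : Submodule ℂ H := Submodule.span ℂ (Set.range (fun k : Fin (d + 1) => (A ^ k.val) x))
    with hK
  have : FiniteDimensional ℂ K := FiniteDimensional.span_of_finite ℂ (Set.finite_range _)
  have hrank : Module.finrank ℂ K ≤ d + 1 := by
    have := finrank_range_le_card (R := ℂ) (fun k : Fin (d + 1) => (A ^ k.val) x)
    simpa [Set.finrank] using this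
  have hmem : ∀ k, k ≤ d → (A ^ k) x ∈ K := by
    intro k hk
    exact Submodule.subset_span ⟨⟨k, by omega⟩, rfl⟩
  set B : K →L[ℂ] K := K.orthogonalProjectionOnto ∘L A ∘L K.subtypeL with hB
  set xK : K := ⟨x, by simpa using hmem 0 (Nat.zero_le _)⟩ with hxK
  have hpow : ∀ k, k ≤ d → (((B ^ k) xK : K) : H) = (A ^ k) x := by
    intro k
    induction k with
    | zero => intro _; simp [hxK]
    | succ k ih =>
      intro hk
      have ihk := ih (by omega)
      rw [pow_succ', pow_succ', ContinuousLinearMap.mul_apply, ContinuousLinearMap.mul_apply]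
      have e1 : A (((B ^ k) xK : K) : H) = A ((A ^ k) x) := by rw [ihk]
      have hm : A ((A ^ k) x) ∈ K := by
        have := hmem (k + 1) hk
        rwa [pow_succ', ContinuousLinearMap.mul_apply] at this
      have e2 : B ((B ^ k) xK) = K.orthogonalProjectionOnto (A (((B ^ k) xK : K) : H)) := rfl
      rw [e2, e1]
      have := Submodule.orthogonalProjectionOnto_mem_subspace_eq_self (K := K) ⟨_, hm⟩
      rw [this]
  have hval : ((aeval B P xK : K) : H) = aeval A P x := by
    rw [aeval_eq_sum_range' (Nat.lt_succ_of_le hP) B, aeval_eq_sum_range' (Nat.lt_succ_of_le hP) A]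
    simp only [ContinuousLinearMap.sum_apply, ContinuousLinearMap.smul_apply, Submodule.coe_sum,
      Submodule.coe_smul]
    refine Finset.sum_congr rfl ?_
    intro k hk
    rw [hpow k (by have := Finset.mem_range.mp hk; omega)]
  have hWB : ∀ y : K, ‖y‖ = 1 → ‖P.eval (inner ℂ y (B y))‖ ≤ M := by
    intro y hy
    have e : inner ℂ y (B y) = inner ℂ (y : H) (A (y : H)) :=
      Submodule.inner_orthogonalProjectionOnto_eq_of_mem_left y (A (y : H))
    rw [e]
    exact hW (y : H) (by simpa using hy)
  have hB' := hfin K hrank B P M hP hM hWB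
  calc ‖aeval A P x‖ = ‖(aeval B P xK : K)‖ := by rw [← hval]; rfl
    _ ≤ ‖aeval B P‖ * ‖xK‖ := ContinuousLinearMap.le_opNorm _ _
    _ ≤ C * M * ‖x‖ := by
        have : ‖xK‖ = ‖x‖ := rfl
        rw [this]
        exact mul_le_mul_of_nonneg_right hB' (norm_nonneg _)

end Vale.Agent.Results.P123.MatrixReduction
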